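import Vale.Agent.P031.Final

open Filter Topology

namespace Vale.Agent.Results.P031.A_full

/-- `V x` is the number of distinct values of Euler's totient function up to `x`. -/
noncomputable def V (x : ℝ) : ℕ :=
  Set.ncard {v : ℕ | (∃ n : ℕ, 1 ≤ n ∧ Nat.totient n = v) ∧ (v : ℝ) ≤ x}

theorem V_eq (x : ℝ) (hx : 0 ≤ x) : V x = Vale.Agent.P031.VV x := by
  classical
  unfold V Vale.Agent.P031.VV
  rw [← Set.ncard_coe_finset]
  congr 1
  ext v
  simp only [Set.mem_ofPred_eq, Finset.coe_filter, Finset.mem_Icc, Vale.Agent.P031.IsTot,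
    Nat.le_floor_iff hx]
  constructor
  · rintro ⟨⟨n, hn, rfl⟩, h⟩
    exact ⟨⟨Nat.totient_pos.2 hn, h⟩, n, hn, rfl⟩
  · rintro ⟨⟨_, h⟩, n, hn, rfl⟩
    exact ⟨⟨n, hn, rfl⟩, h⟩

theorem result (c : ℝ) (hc : 1 < c) :
    Tendsto (fun x : ℝ => (V (c * x) : ℝ) / (V x : ℝ)) atTop (𝓝 c) := by
  refine (Vale.Agent.P031.main c hc).congr' ?_
  filter_upwards [eventually_ge_atTop 0] with x hx
  rw [V_eq x hx, V_eq (c * x) (by positivity)]

end Vale.Agent.Results.P031.A_full
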